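import Vale.Agent.P273.Bdl.B1

/-!
(1) In the top degree `3g-3+n` the functionals that satisfy Pixton's relations form a space of
dimension at most one, for all `(g, n)`.
(2) In each codimension `D`, completeness of Pixton's relations for all `(g, n)` follows from
finitely many cases, and also from one single case: one `Mbar_G` in one codimension.
-/

namespace Vale.Agent.Results.P273.OneInstance

open Vale.Agent.P273.Q Sum
open scoped Classical

/-- `T g d L` stands for the space of functionals on the tautological group `R^d` of the moduli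
space of stable curves of genus `g` with leg set `L`. The hypotheses on `T` are, in this order:
the trivial relations hold; closed under linear combinations; under relabelling; under the duals of:
gluing a fundamental class of genus `h`; forgetful pullback; restriction to the divisor of
rational tails with two legs; restriction along the map that attaches a fixed elliptic curve. -/
theorem result : (∀ g d n (s t : Fn (Lg n)), d + 3 = 3 * g + n → Pix g d s → Pix g d t →
      s = (fun _ _ _ _ => 0) ∨ ∃ c : ℚ, t = fun V E a f => c * s V E a f) ∧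
    ∀ D, ∃ N, ∀ T : ℕ → ℕ → ∀ L, Fn L → Prop,
    (∀ g d L s, T g d L s → Tr g d s) →
    (∀ g d L s t c, T g d L s → T g d L t → T g d L fun V E a f => s V E a f + c * t V E a f) →
    (∀ g d L M s i, i.Bijective → T g d L s →
      T g d M fun V E a f => s V E a fun y => f (y.map id i)) →
    (∀ g d L s h, 1 ≤ h → T (g + h) (d + 1) L s →
      T g d (Option L) fun V E a f => s (Option V) (Option E) (Option.elim' (h, 0) a) (tail f)) →
    (∀ g d L s, T g d (Option L) s → T g d L (pull g d s)) →
    (∀ g d L s, T g d (Option L) s → ∃ t, T g d (Option (Option L)) t ∧ pull g d t = s ∧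
      ∀ V E a f, (f (inr none) = f (inr (some none)) → (f (inr none)).2 ≠ 0) → t V E a f = 0) →
    (∀ g d L s, T g d (Option L) s → (∀ V E a f, (f (inr none)).2 ≠ 0 → s V E a f = 0) →
      ∃ t, T (g + 1) d L t ∧ ∀ V E a f, (∀ v, 0 ∉ (a v).2) → t V E a f =
        ∑ᶠ (v) (_ : (a v).1 ≠ 0), s V E (Function.update a v ((a v).1 - 1, (a v).2)) (ad f v 0)) →
    ((∀ g ≤ 3 * D * (D + 1) + 1, ∀ n ≤ N, ∀ s, Pix g D s → T g D (Lg n) s) ∨
      ∃ d ≥ N, ∃ G ≥ 2 ^ d * N, ∀ s, Pix G d s → T G d Empty s) →
    ∀ g n s, Pix g D s → T g D (Lg n) s :=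
  ⟨fun _ _ _ _ _ h h1 h2 => or_iff_not_imp_left.2 (Vale.Agent.P273.dual_top h h1 h2),
    Vale.Agent.P273.dual_main⟩

end Vale.Agent.Results.P273.OneInstance
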